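import Vale.Agent.P363.R.Sob.S06
import Vale.Agent.P363.R.Sob.S14
import Vale.Agent.P363.R.Sob.LocApprox
import Vale.Agent.P247.H74.Defs

/-!
# Local Sobolev classes on `ℝ⁴`: definitions

`LL p f`: `f` is locally in `L^p`; `Sob k f`: all weak derivatives up to order `k` are locally
square integrable.
-/

open scoped ContDiff Topology ENNReal
open Set MeasureTheory Filter Metric
open Vale.Agent.P247.H74 (R4 e)
open Vale.Agent.P363.R.Sob

noncomputable section

namespace Vale.Agent.P247.H306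

variable {F : Type*} [NormedAddCommGroup F] [NormedSpace ℝ F]

/-- locally in `L^p` -/
def LL (p : ℝ≥0∞) (f : R4 → F) : Prop := ∀ K : Set R4, IsCompact K → MemLp f p (volume.restrict K)

/-- weak derivatives up to order `k` in `L²_loc` -/
def Sob : ℕ → (R4 → F) → Prop
  | 0, f => LL 2 f
  | k + 1, f => LL 2 f ∧ ∀ i : Fin 4, ∃ g : R4 → F, IsWD volume (e i) f g ∧ Sob k g

@[simp] theorem sob_zero {f : R4 → F} : Sob 0 f ↔ LL 2 f := Iff.rfl

theorem sob_succ {k : ℕ} {f : R4 → F} :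
    Sob (k + 1) f ↔ LL 2 f ∧ ∀ i : Fin 4, ∃ g : R4 → F, IsWD volume (e i) f g ∧ Sob k g := Iff.rfl

theorem Sob.ll {k : ℕ} {f : R4 → F} (h : Sob k f) : LL 2 f := by
  cases k with
  | zero => exact h
  | succ k => exact h.1

theorem Sob.mono {k l : ℕ} (hkl : k ≤ l) {f : R4 → F} (h : Sob l f) : Sob k f := by
  induction k generalizing l f with
  | zero => exact h.ll
  | succ k ih =>
    obtain ⟨m, rfl⟩ : ∃ m, l = m + 1 := ⟨l - 1, by omega⟩
    refine ⟨h.1, fun i => ?_⟩
    obtain ⟨g, hg, hs⟩ := h.2 i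
    exact ⟨g, hg, ih (by omega) hs⟩

end Vale.Agent.P247.H306
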