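import Vale.Agent.P247.H306.HodWeyl
import Vale.Agent.P247.H821.Repar

/-!
# P247, stage 2, HODGE: calculus of the limits `Lim F u r h`

Restriction, uniqueness, change of the parameter, translation.
-/

open scoped ContDiff Topology ENNReal
open Set MeasureTheory Filter Metric

noncomputable section

namespace Vale.Agent.P247.H306

open Vale.Agent.P247.H74 Vale.Agent.P247.H574 Vale.Agent.P247.H690.HD

/-! ### The chain rule for `∂` -/

theorem fderiv_hol {φ : ℂ → ℂ} {z : ℂ} (hφ : DifferentiableAt ℂ φ z) (w : ℂ) :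
    fderiv ℝ φ z w = w * deriv φ z := by
  have h1 := (hφ.hasDerivAt.hasFDerivAt.restrictScalars ℝ).fderiv
  rw [h1]
  simp

theorem dz_comp {G : ℂ → ℝ} {φ : ℂ → ℂ} {z : ℂ} (hG : DifferentiableAt ℝ G (φ z))
    (hφ : DifferentiableAt ℂ φ z) : dz (G ∘ φ) z = dz G (φ z) * deriv φ z := by
  have hφr : DifferentiableAt ℝ φ z := hφ.restrictScalars ℝ
  have h1 : fderiv ℝ (G ∘ φ) z = (fderiv ℝ G (φ z)).comp (fderiv ℝ φ z) := fderiv_comp z hG hφr
  set c := deriv φ z with hc
  set L := fderiv ℝ G (φ z) with hL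
  have h2 : ∀ w : ℂ, L w = w.re * L 1 + w.im * L Complex.I := by
    intro w
    have h3 : w = w.re • (1 : ℂ) + w.im • Complex.I := by
      apply Complex.ext <;> simp
    conv_lhs => rw [h3]
    rw [map_add, map_smul, map_smul, smul_eq_mul, smul_eq_mul]
  unfold dz
  rw [h1, ContinuousLinearMap.comp_apply, ContinuousLinearMap.comp_apply, fderiv_hol hφ,
    fderiv_hol hφ, ← hL, ← hc, one_mul, h2 c, h2 (Complex.I * c)]
  apply Complex.ext
  · simp
    ring
  · simp
    ring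

theorem det_mul (c : ℂ) :
    ((ContinuousLinearMap.toSpanSingleton ℂ c : ℂ →L[ℂ] ℂ).restrictScalars ℝ).det = ‖c‖ ^ 2 := by
  have h1 : (((ContinuousLinearMap.toSpanSingleton ℂ c : ℂ →L[ℂ] ℂ).restrictScalars ℝ :
      ℂ →L[ℝ] ℂ) : ℂ →ₗ[ℝ] ℂ) = Algebra.lmul ℝ ℂ c := by
    ext
    simp [mul_comm]
  rw [ContinuousLinearMap.det, h1, ← Algebra.norm_apply, Algebra.norm_complex_apply,
    Complex.normSq_eq_norm_sq]

/-! ### Integrability -/

variable {F : ℕ → R4 → ℝ} {u v : ℂ → R4} {r r' ρ : ℝ} {h h' : ℂ → ℂ}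

theorem cont_dz {g : ℂ → ℝ} (hg : ContDiffOn ℝ ∞ g (ball 0 2)) :
    ContinuousOn (dz g) (ball 0 2) := by
  have h1 : ContinuousOn (fderiv ℝ g) (ball 0 2) :=
    (hg.of_le (m := 1) (by simp)).continuousOn_fderiv_of_isOpen isOpen_ball le_rfl
  unfold dz
  have h2 : ∀ w : ℂ, ContinuousOn (fun z => ((fderiv ℝ g z w : ℝ) : ℂ)) (ball 0 2) := fun w =>
    Complex.continuous_ofReal.comp_continuousOn (h1.clm_apply continuousOn_const)
  exact ((h2 1).sub (continuousOn_const.mul (h2 Complex.I))).div_const _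

theorem ball_sub_two {r : ℝ} (hr : r ≤ 1) : closedBall (0 : ℂ) r ⊆ ball 0 2 :=
  closedBall_subset_ball (by linarith)

theorem memLp_dz {g : ℂ → ℝ} (hg : ContDiffOn ℝ ∞ g (ball 0 2)) (hr : r ≤ 1) :
    MemLp (dz g) 2 (volume.restrict (ball 0 r)) := by
  have h1 : ContinuousOn (dz g) (closedBall 0 r) := (cont_dz hg).mono (ball_sub_two hr)
  have h2 : MemLp (dz g) 2 (volume.restrict (closedBall 0 r)) := by
    have h3 : IsCompact (closedBall (0 : ℂ) r) := isCompact_closedBall _ _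
    obtain ⟨C, hC⟩ := h3.exists_bound_of_continuousOn h1
    have h4 : IsFiniteMeasure (volume.restrict (closedBall (0 : ℂ) r)) :=
      ⟨by rw [Measure.restrict_apply_univ]; exact h3.measure_lt_top⟩
    exact MemLp.of_bound (h1.aestronglyMeasurable h3.measurableSet) C
      ((ae_restrict_iff' h3.measurableSet).2 (Eventually.of_forall hC))
  exact h2.mono_measure (Measure.restrict_mono ball_subset_closedBall le_rfl)

theorem Lim.memLp (hL : Lim F u r h) : MemLp h 2 (volume.restrict (ball 0 r)) := by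
  rw [memLp_two_iff_integrable_sq_norm
    (hL.hol.continuousOn.aestronglyMeasurable measurableSet_ball)]
  exact hL.int

theorem int_diff (hF : ∀ n, ContDiff ℝ ∞ (F n)) (hu : ContDiffOn ℝ ∞ u (ball 0 2)) (hr : r ≤ 1)
    (hL : Lim F u r h) (n : ℕ) :
    MemLp (fun z => dz (F n ∘ u) z - h z) 2 (volume.restrict (ball 0 r)) :=
  (memLp_dz ((hF n).comp_contDiffOn hu) hr).sub (Lim.memLp hL)

theorem int_diff_sq (hF : ∀ n, ContDiff ℝ ∞ (F n)) (hu : ContDiffOn ℝ ∞ u (ball 0 2)) (hr : r ≤ 1)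
    (hL : Lim F u r h) (n : ℕ) :
    IntegrableOn (fun z => ‖dz (F n ∘ u) z - h z‖ ^ 2) (ball 0 r) := by
  have h1 := int_diff hF hu hr hL n
  exact (memLp_two_iff_integrable_sq_norm h1.1).1 h1

/-! ### Restriction, uniqueness -/

theorem Lim.mono (hF : ∀ n, ContDiff ℝ ∞ (F n)) (hu : ContDiffOn ℝ ∞ u (ball 0 2)) (hr : r ≤ 1)
    (hL : Lim F u r h) (hr' : r' ≤ r) : Lim F u r' h := by
  have hs : ball (0 : ℂ) r' ⊆ ball 0 r := ball_subset_ball hr'
  refine ⟨hL.hol.mono hs, ?_, hL.int.mono_set hs⟩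
  refine squeeze_zero (fun n => integral_nonneg fun z => by positivity) (fun n => ?_) hL.lim
  exact setIntegral_mono_set (int_diff_sq hF hu hr hL n)
    (Eventually.of_forall fun z => by positivity) hs.eventuallyLE

theorem Lim.uniq (hF : ∀ n, ContDiff ℝ ∞ (F n)) (hu : ContDiffOn ℝ ∞ u (ball 0 2)) (hr : r ≤ 1)
    (hL : Lim F u r h) (hL' : Lim F u r h') : EqOn h h' (ball 0 r) := by
  have h1 : ∫ z in ball (0 : ℂ) r, ‖h z - h' z‖ ^ 2 = 0 := by
    have h2 : Tendsto (fun n => 2 * (∫ z in ball (0 : ℂ) r, ‖dz (F n ∘ u) z - h z‖ ^ 2) +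
        2 * ∫ z in ball (0 : ℂ) r, ‖dz (F n ∘ u) z - h' z‖ ^ 2) atTop (𝓝 0) := by
      have := (hL.lim.const_mul 2).add (hL'.lim.const_mul 2)
      simpa using this
    refine le_antisymm (ge_of_tendsto' h2 fun n => ?_)
      (integral_nonneg fun z => by positivity)
    rw [← integral_const_mul, ← integral_const_mul, ← integral_add
      ((int_diff_sq hF hu hr hL n).const_mul 2) ((int_diff_sq hF hu hr hL' n).const_mul 2)]
    refine integral_mono_of_nonneg (Eventually.of_forall fun z => by positivity)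
      (((int_diff_sq hF hu hr hL n).const_mul 2).add ((int_diff_sq hF hu hr hL' n).const_mul 2))
      (Eventually.of_forall fun z => ?_)
    have h3 : ‖h z - h' z‖ ≤ ‖dz (F n ∘ u) z - h z‖ + ‖dz (F n ∘ u) z - h' z‖ := by
      have h4 : h z - h' z = (dz (F n ∘ u) z - h' z) - (dz (F n ∘ u) z - h z) := by ring
      rw [h4, add_comm]
      exact norm_sub_le _ _
    simp only
    nlinarith [sq_nonneg (‖dz (F n ∘ u) z - h z‖ - ‖dz (F n ∘ u) z - h' z‖),
      norm_nonneg (h z - h' z), norm_nonneg (dz (F n ∘ u) z - h z),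
      norm_nonneg (dz (F n ∘ u) z - h' z)]
  have hm : MemLp (fun z => h z - h' z) 2 (volume.restrict (ball 0 r)) :=
    (Lim.memLp hL).sub (Lim.memLp hL')
  have h5 := (setIntegral_eq_zero_iff_of_nonneg_ae (Eventually.of_forall fun z => by positivity)
    ((memLp_two_iff_integrable_sq_norm hm.1).1 hm)).1 h1
  refine eqOn_of_ae_eq isOpen_ball hL.hol.continuousOn hL'.hol.continuousOn ?_
  filter_upwards [h5] with z hz
  have h6 : ‖h z - h' z‖ ^ 2 = 0 := hz
  have h7 : ‖h z - h' z‖ = 0 := by simpa using h6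
  exact sub_eq_zero.1 (norm_eq_zero.1 h7)

/-! ### Change of parameter -/

theorem Lim.chg (hF : ∀ n, ContDiff ℝ ∞ (F n)) (hv : ContDiffOn ℝ ∞ v (ball 0 2)) (hr : r ≤ 1)
    (hL : Lim F v r h) {φ : ℂ → ℂ} (hφ : DifferentiableOn ℂ φ (ball 0 ρ))
    (hinj : InjOn φ (ball 0 ρ)) (hmap : ∀ z ∈ ball (0 : ℂ) ρ, φ z ∈ ball (0 : ℂ) r)
    (huv : ∀ z ∈ ball (0 : ℂ) ρ, u z = v (φ z)) :
    Lim F u ρ (fun z => h (φ z) * deriv φ z) := by
  have hb2 : ball (0 : ℂ) r ⊆ ball 0 2 := ball_subset_closedBall.trans (ball_sub_two hr)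
  have hφd : ∀ z ∈ ball (0 : ℂ) ρ, DifferentiableAt ℂ φ z := fun z hz =>
    hφ.differentiableAt (isOpen_ball.mem_nhds hz)
  have hfd : ∀ z ∈ ball (0 : ℂ) ρ, HasFDerivWithinAt φ
      ((ContinuousLinearMap.toSpanSingleton ℂ (deriv φ z) : ℂ →L[ℂ] ℂ).restrictScalars ℝ)
      (ball 0 ρ) z := fun z hz =>
    ((hφd z hz).hasDerivAt.hasFDerivAt.restrictScalars ℝ).hasFDerivWithinAt
  have him : φ '' ball 0 ρ ⊆ ball 0 r := by
    rintro _ ⟨z, hz, rfl⟩
    exact hmap z hz
  have hcv : ∀ g : ℂ → ℝ, ∫ z in φ '' ball 0 ρ, g z = ∫ z in ball (0 : ℂ) ρ, ‖deriv φ z‖ ^ 2 * g (φ z) := by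
    intro g
    rw [integral_image_eq_integral_abs_det_fderiv_smul volume measurableSet_ball hfd hinj]
    refine integral_congr_ae (Eventually.of_forall fun z => ?_)
    simp only [det_mul, smul_eq_mul]
    rw [abs_of_nonneg (by positivity)]
  refine ⟨(hL.hol.comp hφ hmap).mul (hφ.deriv isOpen_ball), ?_, ?_⟩
  · refine squeeze_zero (fun n => integral_nonneg fun z => by positivity) (fun n => ?_) hL.lim
    have e1 : ∫ z in ball (0 : ℂ) ρ, ‖dz (F n ∘ u) z - h (φ z) * deriv φ z‖ ^ 2 =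
        ∫ z in φ '' ball 0 ρ, ‖dz (F n ∘ v) z - h z‖ ^ 2 := by
      rw [hcv]
      refine setIntegral_congr_fun measurableSet_ball fun z hz => ?_
      have h1 : F n ∘ u =ᶠ[𝓝 z] (F n ∘ v) ∘ φ := by
        filter_upwards [isOpen_ball.mem_nhds hz] with w hw
        simp only [Function.comp_apply, huv w hw]
      have h2 : dz (F n ∘ u) z = dz ((F n ∘ v) ∘ φ) z := by
        unfold dz
        rw [h1.fderiv_eq]
      have h3 : DifferentiableAt ℝ (F n ∘ v) (φ z) :=
        (((hF n).comp_contDiffOn hv).differentiableOn (by simp)).differentiableAt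
          (isOpen_ball.mem_nhds (hb2 (hmap z hz)))
      rw [h2, dz_comp h3 (hφd z hz), ← sub_mul, norm_mul, mul_pow, mul_comm]
    rw [e1]
    exact setIntegral_mono_set (int_diff_sq hF hv hr hL n)
      (Eventually.of_forall fun z => by positivity) him.eventuallyLE
  · have h4 : IntegrableOn (fun z => ‖h z‖ ^ 2) (φ '' ball 0 ρ) := hL.int.mono_set him
    rw [integrableOn_image_iff_integrableOn_abs_det_fderiv_smul volume measurableSet_ball hfd
      hinj] at h4
    refine h4.congr_fun (fun z _ => ?_) measurableSet_ball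
    simp only [det_mul, smul_eq_mul]
    rw [abs_of_nonneg (by positivity), norm_mul, mul_pow, mul_comm]

/-! ### Translation -/

theorem lim_tr {j : Fin 4} (hper : ∀ n (k : Fin 4 → ℤ) x, F n (tr k x) = F n x + k j)
    (hL : Lim F u r h) (k : Fin 4 → ℤ) : Lim F (fun z => tr k (u z)) r h := by
  refine ⟨hL.hol, ?_, hL.int⟩
  have e1 : ∀ n, dz (F n ∘ fun z => tr k (u z)) = dz (F n ∘ u) := by
    intro n
    funext z
    have h1 : (F n ∘ fun z => tr k (u z)) = fun z => (F n ∘ u) z + (k j : ℝ) := by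
      funext w
      simp only [Function.comp_apply, hper]
    unfold dz
    rw [h1, fderiv_add_const]
  simp only [e1]
  exact hL.lim

end Vale.Agent.P247.H306
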