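import Vale.Agent.P247.H306.HodA
import Vale.Agent.P247.H710.PU

/-!
# P247, stage 2, HODGE: the four limit forms on the curve
-/

open scoped ContDiff Topology ENNReal
open Set MeasureTheory Filter Metric

noncomputable section

namespace Vale.Agent.P247.H306

open Vale.Agent.P247.H74 Vale.Agent.P247.H574 Vale.Agent.P247.H690.HD Vale.Agent.P247.H821
open Vale.Agent.P247.H710 (tr_sub tr_neg_cancel tr_neg_cancel')

variable {D : Data}

/-! ### Translations -/

theorem fderiv_trc (k : Fin 4 → ℤ) (u : ℂ → R4) (z : ℂ) :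
    fderiv ℝ (fun z => tr k (u z)) z = fderiv ℝ u z := by
  have h1 : (fun z => tr k (u z)) = fun z => u z + fun i => (k i : ℝ) := by
    funext w; exact tr_sub k (u w)
  rw [h1, fderiv_add_const]

theorem tr_inj' {k : Fin 4 → ℤ} {x y : R4} (h : tr k x = tr k y) : x = y := by
  have := congrArg (tr (-k)) h
  rwa [tr_neg_cancel', tr_neg_cancel'] at this

theorem dist_tr (k : Fin 4 → ℤ) (a b : R4) : dist (tr k a) (tr k b) = dist a b := by
  rw [tr_sub, tr_sub, dist_add_right]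

theorem J_tr (D : Data) (k : Fin 4 → ℤ) (x : R4) : D.J (tr k x) = D.J x := D.J_per k x

theorem brs_tr {K : Set R4} (hK : ∀ (k : Fin 4 → ℤ) x, x ∈ K → tr k x ∈ K) {x : R4} {N : ℕ}
    {u : Fin N → ℂ → R4} {ε : ℝ} (h : Brs D K x N u ε) (k : Fin 4 → ℤ) :
    Brs D K (tr k x) N (fun l z => tr k (u l z)) ε where
  posN := h.posN
  posε := h.posε
  disc l := by
    refine ⟨?_, fun z hz => ?_⟩
    · have h1 : (fun z => tr k (u l z)) = fun z => u l z + fun i => (k i : ℝ) := by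
        funext w; exact tr_sub k (u l w)
      rw [h1]
      exact (h.disc l).smooth.add contDiffOn_const
    · rw [fderiv_trc, J_tr]
      exact (h.disc l).hol z hz
  zero l := by rw [h.zero l]
  imm l z hz h0 := by
    rw [fderiv_trc]
    exact h.imm l z hz h0
  inj l l' z hz z' hz' he := h.inj l l' z hz z' hz' (tr_inj' he)
  far l z hz h1 := by
    rw [dist_tr]
    exact h.far l z hz h1
  mem l z hz := hK k _ (h.mem l z hz)
  cov y hy hyK := by
    have h1 : tr (-k) y ∈ ball x ε := by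
      rw [mem_ball, ← dist_tr k, tr_neg_cancel]
      exact hy
    obtain ⟨l, z, hz, hzy⟩ := h.cov _ h1 (hK _ _ hyK)
    exact ⟨l, z, hz, by rw [hzy, tr_neg_cancel]⟩

/-! ### The values of the limits at a smooth point -/

/-- `c j` is the value on the tangent vector `a` of the `j`-th limit form, at the smooth point
`y` -/
def PP (D : Data) (K : Set R4) (F : Fin 4 → ℕ → R4 → ℝ) (y : R4) (a : R4) (c : Fin 4 → ℂ) : Prop :=
  a ≠ 0 ∧ ∃ (u : Fin 1 → ℂ → R4) (ε : ℝ), Brs D K y 1 u ε ∧ fderiv ℝ (u 0) 0 1 = a ∧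
    ∃ r > 0, r ≤ 1 ∧ ∃ h : Fin 4 → ℂ → ℂ, (∀ j, Lim (F j) (u 0) r (h j)) ∧ ∀ j, c j = h j 0

section

variable {K : Set R4} {F : Fin 4 → ℕ → R4 → ℝ}

theorem pp_tr_imp (hK : ∀ (k : Fin 4 → ℤ) x, x ∈ K → tr k x ∈ K)
    (hper : ∀ j n (k : Fin 4 → ℤ) x, F j n (tr k x) = F j n x + k j) {y a : R4} {c : Fin 4 → ℂ}
    (h : PP D K F y a c) (k : Fin 4 → ℤ) : PP D K F (tr k y) a c := by
  obtain ⟨ha, u, ε, hB, hu, r, hr, hr1, h, hL, hc⟩ := h
  refine ⟨ha, fun l z => tr k (u l z), ε, brs_tr hK hB k, ?_, r, hr, hr1, h, fun j => ?_, hc⟩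
  · rw [fderiv_trc]
    exact hu
  · exact lim_tr (hper j) (hL j) k

theorem pp_tr (hK : ∀ (k : Fin 4 → ℤ) x, x ∈ K → tr k x ∈ K)
    (hper : ∀ j n (k : Fin 4 → ℤ) x, F j n (tr k x) = F j n x + k j) (y : R4) (k : Fin 4 → ℤ) :
    PP D K F (tr k y) = PP D K F y := by
  funext a c
  refine propext ⟨fun h => ?_, fun h => pp_tr_imp hK hper h k⟩
  have := pp_tr_imp hK hper h (-k)
  rwa [tr_neg_cancel'] at this

theorem Brs.smooth {x : R4} {N : ℕ} {u : Fin N → ℂ → R4} {ε : ℝ} (h : Brs D K x N u ε)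
    (l : Fin N) : ContDiffOn ℝ ∞ (u l) (ball 0 2) := (h.disc l).smooth

/-- derivative of a reparametrised disc -/
theorem fderiv_repar {u v : ℂ → R4} {φ : ℂ → ℂ} {z : ℂ} (huv : ∀ᶠ w in 𝓝 z, u w = v (φ w))
    (hv : DifferentiableAt ℝ v (φ z)) (hφ : DifferentiableAt ℂ φ z) (w : ℂ) :
    fderiv ℝ u z w = fderiv ℝ v (φ z) (w * deriv φ z) := by
  have h1 : u =ᶠ[𝓝 z] v ∘ φ := huv
  rw [h1.fderiv_eq, fderiv_comp z hv (hφ.restrictScalars ℝ), ContinuousLinearMap.comp_apply,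
    fderiv_hol hφ]

theorem fderiv_disc {u : ℂ → R4} (hu : JDisc D u) {z : ℂ} (hz : z ∈ ball (0 : ℂ) 2) (w : ℂ) :
    fderiv ℝ u z w = w.re • fderiv ℝ u z 1 + w.im • D.J (u z) (fderiv ℝ u z 1) := by
  have h3 : w = w.re • (1 : ℂ) + w.im • Complex.I := by
    apply Complex.ext <;> simp
  conv_lhs => rw [h3]
  rw [map_add, map_smul, map_smul, hu.hol z hz]

/-- the smooth points: two descriptions differ by a complex factor -/
theorem pp_coh (hF : ∀ j n, ContDiff ℝ ∞ (F j n)) {y a a' : R4} {c c' : Fin 4 → ℂ}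
    (h : PP D K F y a c) (h' : PP D K F y a' c') :
    ∃ w : ℂ, a' = w.re • a + w.im • D.J y a ∧ ∀ j, c' j = w * c j := by
  obtain ⟨ha, u, ε, hB, hu, r, hr, hr1, h, hL, hc⟩ := h
  obtain ⟨ha', u', ε', hB', hu', r', hr', hr1', h', hL', hc'⟩ := h'
  obtain ⟨l', ρ, hρ, hρ1, φ, hφ, hinj, hφ0, hφ1, huv⟩ := repar_one hB' hB 0
  have hl : l' = 0 := Subsingleton.elim _ _
  subst hl
  -- shrink
  have hφc : ContinuousAt φ 0 :=
    (hφ.differentiableAt (isOpen_ball.mem_nhds (mem_ball_self hρ))).continuousAt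
  have h1 : ∀ᶠ z in 𝓝 (0 : ℂ), φ z ∈ ball (0 : ℂ) r :=
    hφc.eventually (by rw [hφ0]; exact ball_mem_nhds _ hr)
  obtain ⟨δ, hδ, h2⟩ := Metric.eventually_nhds_iff_ball.1 h1
  set s := min ρ (min δ r') with hs
  have hs0 : 0 < s := lt_min hρ (lt_min hδ hr')
  have hsρ : ball (0 : ℂ) s ⊆ ball 0 ρ := ball_subset_ball (min_le_left _ _)
  have hsδ : ball (0 : ℂ) s ⊆ ball 0 δ :=
    ball_subset_ball ((min_le_right _ _).trans (min_le_left _ _))
  have hsr : s ≤ r' := (min_le_right _ _).trans (min_le_right _ _)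
  have h0s : (0 : ℂ) ∈ ball (0 : ℂ) s := mem_ball_self hs0
  have h3 : ∀ j, Lim (F j) (u' 0) s (fun z => h j (φ z) * deriv φ z) := fun j =>
    Lim.chg (hF j) (Brs.smooth hB 0) hr1 (hL j) (hφ.mono hsρ) (hinj.mono hsρ)
      (fun z hz => h2 z (hsδ hz)) (fun z hz => huv z (hsρ hz))
  have h4 : ∀ j, h' j 0 = h j (φ 0) * deriv φ 0 := fun j =>
    Lim.uniq (hF j) (Brs.smooth hB' 0) (hsr.trans hr1')
      (Lim.mono (hF j) (Brs.smooth hB' 0) hr1' (hL' j) hsr) (h3 j) h0s
  refine ⟨deriv φ 0, ?_, fun j => ?_⟩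
  · have h5 : DifferentiableAt ℝ (u 0) (φ 0) := by
      rw [hφ0]
      exact ((Brs.smooth hB 0).contDiffAt (isOpen_ball.mem_nhds (mem_ball_self
        (by norm_num)))).differentiableAt (by simp)
    have h6 := fderiv_repar (u := u' 0) (v := u 0) (φ := φ) (z := 0)
      (by filter_upwards [ball_mem_nhds (0 : ℂ) hρ] with w hw using huv w hw) h5
      (hφ.differentiableAt (isOpen_ball.mem_nhds (mem_ball_self hρ))) 1
    rw [hu', one_mul, hφ0, fderiv_disc (hB.disc 0) (mem_ball_self (by norm_num)), hu,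
      hB.zero 0] at h6
    exact h6
  · rw [hc', hc, h4, hφ0, mul_comm]

/-- a real linear form with prescribed value on `a`, complex linear on the line of `a` -/
theorem exists_form (D : Data) (y : R4) {a : R4} (ha : a ≠ 0) (c : ℂ) :
    ∃ L : R4 →L[ℝ] ℂ, L a = c ∧ L (D.J y a) = Complex.I * c := by
  set T : ℝ × ℝ →ₗ[ℝ] R4 := (LinearMap.toSpanSingleton ℝ R4 a).coprod
    (LinearMap.toSpanSingleton ℝ R4 (D.J y a)) with hT
  have hTa : ∀ s t : ℝ, T (s, t) = s • a + t • D.J y a := fun s t => by simp [hT]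
  have hinj : LinearMap.ker T = ⊥ := by
    rw [LinearMap.ker_eq_bot']
    rintro ⟨s, t⟩ hst
    rw [hTa] at hst
    have h1 : D.J y (s • a + t • D.J y a) = 0 := by rw [hst, map_zero]
    rw [map_add, map_smul, map_smul, D.J_sq] at h1
    have h2 : (s ^ 2 + t ^ 2) • a = 0 := by
      have : (s ^ 2 + t ^ 2) • a = s • (s • a + t • D.J y a) - t • (s • D.J y a + t • -a) := by
        module
      rw [this, hst, h1, smul_zero, smul_zero, sub_zero]
    have h3 : s ^ 2 + t ^ 2 = 0 := (smul_eq_zero.1 h2).resolve_right ha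
    have hs : s = 0 := by nlinarith [sq_nonneg s, sq_nonneg t]
    have ht : t = 0 := by nlinarith [sq_nonneg s, sq_nonneg t]
    rw [hs, ht]; rfl
  obtain ⟨P, hP⟩ := T.exists_leftInverse_of_injective hinj
  have hPT : ∀ p, P (T p) = p := fun p => LinearMap.congr_fun hP p
  have h1 : P a = (1, 0) := by
    have := hPT (1, 0)
    rwa [hTa, one_smul, zero_smul, add_zero] at this
  have h2 : P (D.J y a) = (0, 1) := by
    have := hPT (0, 1)
    rwa [hTa, one_smul, zero_smul, zero_add] at this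
  refine ⟨LinearMap.toContinuousLinearMap
    ((((LinearMap.toSpanSingleton ℝ ℂ c).coprod
      (LinearMap.toSpanSingleton ℝ ℂ (Complex.I * c))).comp P)), ?_, ?_⟩
  · simp [h1]
  · simp [h2]

/-- the limit forms: at the smooth points the form is determined by the limits -/
def Th (D : Data) (K : Set R4) (F : Fin 4 → ℕ → R4 → ℝ) (j : Fin 4) (y : R4) : R4 →L[ℝ] ℂ :=
  open Classical in
  if h : ∃ L : Fin 4 → R4 →L[ℝ] ℂ, ∀ a c, PP D K F y a c → ∀ j, L j a = c j ∧
    L j (D.J y a) = Complex.I * c j then h.choose j else 0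

theorem th_per (hK : ∀ (k : Fin 4 → ℤ) x, x ∈ K → tr k x ∈ K)
    (hper : ∀ j n (k : Fin 4 → ℤ) x, F j n (tr k x) = F j n x + k j) (j : Fin 4) (k : Fin 4 → ℤ)
    (y : R4) : Th D K F j (tr k y) = Th D K F j y := by
  have e1 : PP D K F (tr k y) = PP D K F y := pp_tr hK hper y k
  have e2 : D.J (tr k y) = D.J y := J_tr D k y
  unfold Th
  rw [e1, e2]

theorem th_val (hF : ∀ j n, ContDiff ℝ ∞ (F j n)) {y a : R4} {c : Fin 4 → ℂ}
    (h : PP D K F y a c) (j : Fin 4) :
    Th D K F j y a = c j ∧ Th D K F j y (D.J y a) = Complex.I * c j := by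
  have hex : ∃ L : Fin 4 → R4 →L[ℝ] ℂ, ∀ a c, PP D K F y a c → ∀ j, L j a = c j ∧
      L j (D.J y a) = Complex.I * c j := by
    choose L hL1 hL2 using fun j => exists_form D y h.1 (c j)
    refine ⟨L, fun a' c' h' j => ?_⟩
    obtain ⟨w, hw, hwc⟩ := pp_coh hF h h'
    have hw' : (w.re : ℂ) + w.im * Complex.I = w := Complex.re_add_im w
    constructor
    · rw [hw, map_add, map_smul, map_smul, hL1, hL2, hwc, Complex.real_smul, Complex.real_smul]
      linear_combination c j * hw'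
    · rw [hw, map_add, map_smul, map_smul, D.J_sq, map_add, map_smul, map_smul, map_neg, hL1, hL2,
        hwc, Complex.real_smul, Complex.real_smul]
      linear_combination Complex.I * c j * hw' - c j * w.im * Complex.I_sq
  unfold Th
  rw [dif_pos hex]
  exact hex.choose_spec a c h j

end

end Vale.Agent.P247.H306
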