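import Vale.Agent.P247.H306.HodB

/-!
# P247, stage 2, HODGE: the limit forms on all branches, non vanishing
-/

open scoped ContDiff Topology ENNReal
open Set MeasureTheory Filter Metric

noncomputable section

namespace Vale.Agent.P247.H306

open Vale.Agent.P247.H74 Vale.Agent.P247.H574 Vale.Agent.P247.H690.HD Vale.Agent.P247.H821

variable {D : Data}

/-- affine reparametrisation `w ↦ z + s w` -/
theorem hasDeriv_aff (z : ℂ) (s : ℝ) (w : ℂ) :
    HasDerivAt (fun w : ℂ => z + (s : ℂ) * w) (s : ℂ) w := by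
  simpa using ((hasDerivAt_id w).const_mul (s : ℂ)).const_add z

/-- The limit forms at the points of a branch. -/
theorem th_branch {K : Set R4} {F : Fin 4 → ℕ → R4 → ℝ} (hF : ∀ j n, ContDiff ℝ ∞ (F j n))
    {x : R4} {N : ℕ} {u : Fin N → ℂ → R4} {ε : ℝ} (hB : Brs D K x N u ε) (l : Fin N)
    {r : ℝ} (hr : 0 < r) (hr1 : r ≤ 1) {h : Fin 4 → ℂ → ℂ} (hL : ∀ j, Lim (F j) (u l) r (h j)) :
    ∃ ρ > 0, ρ ≤ r ∧ ∀ z ∈ ball (0 : ℂ) ρ, (z ≠ 0 ∨ (N = 1 ∧ fderiv ℝ (u l) 0 1 ≠ 0)) →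
      fderiv ℝ (u l) z 1 ≠ 0 ∧ ∀ j, Th D K F j (u l z) (fderiv ℝ (u l) z 1) = h j z ∧
        Th D K F j (u l z) (fderiv ℝ (u l) z Complex.I) = Complex.I * h j z := by
  obtain ⟨r₀, hr₀, hrec⟩ := RECENTER D K x N u ε hB l
  refine ⟨min r r₀, lt_min hr hr₀, min_le_left _ _, fun z hz hcase => ?_⟩
  have hzr : z ∈ ball (0 : ℂ) r := ball_subset_ball (min_le_left _ _) hz
  have hzr₀ : z ∈ ball (0 : ℂ) r₀ := ball_subset_ball (min_le_right _ _) hz
  have hz2 : z ∈ ball (0 : ℂ) 2 := ball_subset_ball (by linarith) hzr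
  by_cases hz0 : z = 0
  · -- the centre of an immersed single branch
    subst hz0
    obtain ⟨hN, him⟩ := hcase.resolve_left (fun h => h rfl)
    subst hN
    have hl : l = 0 := Subsingleton.elim _ _
    subst hl
    have hPP : PP D K F (u 0 0) (fderiv ℝ (u 0) 0 1) (fun j => h j 0) := by
      refine ⟨him, u, ε, ?_, rfl, r, hr, hr1, h, hL, fun j => rfl⟩
      rw [hB.zero 0]
      exact hB
    refine ⟨him, fun j => ⟨(th_val hF hPP j).1, ?_⟩⟩
    rw [(hB.disc 0).hol 0 hz2]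
    exact (th_val hF hPP j).2
  · obtain ⟨him, s₀, hs₀, hrec'⟩ := hrec z hzr₀ hz0
    -- a small disc around z
    obtain ⟨δ, hδ, hδr⟩ := Metric.isOpen_iff.1 isOpen_ball z hzr
    set s : ℝ := min s₀ δ with hs
    have hs0 : 0 < s := lt_min hs₀ hδ
    obtain ⟨ε', hB'⟩ := hrec' s hs0 (min_le_left _ _)
    set φ : ℂ → ℂ := fun w => z + (s : ℂ) * w with hφ
    have hφd : ∀ w, HasDerivAt φ (s : ℂ) w := hasDeriv_aff z s
    have hφ1 : ∀ w ∈ ball (0 : ℂ) 1, φ w ∈ ball (0 : ℂ) r := by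
      intro w hw
      apply hδr
      rw [mem_ball_zero_iff] at hw
      rw [mem_ball, dist_eq_norm]
      have : φ w - z = (s : ℂ) * w := by simp [hφ]
      rw [this, norm_mul, Complex.norm_real, Real.norm_eq_abs, abs_of_pos hs0]
      calc s * ‖w‖ < s * 1 := by gcongr
        _ ≤ δ := by rw [mul_one]; exact min_le_right _ _
    have hsne : (s : ℂ) ≠ 0 := by exact_mod_cast hs0.ne'
    have hinj : InjOn φ (ball 0 1) := by
      intro a _ b _ hab
      have : (s : ℂ) * a = (s : ℂ) * b := add_left_cancel hab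
      exact mul_left_cancel₀ hsne this
    have hL' : ∀ j, Lim (F j) (fun w => u l (φ w)) 1 (fun w => h j (φ w) * deriv φ w) := fun j =>
      Lim.chg (hF j) (Brs.smooth hB l) hr1 (hL j)
        (fun w _ => (hφd w).differentiableAt.differentiableWithinAt) hinj hφ1 (fun w _ => rfl)
    have hφ0 : φ 0 = z := by simp [hφ]
    have hud : DifferentiableAt ℝ (u l) (φ 0) := by
      rw [hφ0]
      exact ((Brs.smooth hB l).contDiffAt (isOpen_ball.mem_nhds hz2)).differentiableAt (by simp)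
    have hder : ∀ ζ, fderiv ℝ (fun w => u l (φ w)) 0 ζ = fderiv ℝ (u l) z (ζ * (s : ℂ)) := by
      intro ζ
      rw [fderiv_repar (u := fun w => u l (φ w)) (v := u l) (φ := φ) (z := 0)
        (Eventually.of_forall fun _ => rfl) hud (hφd 0).differentiableAt, hφ0, (hφd 0).deriv]
    have hder1 : fderiv ℝ (fun w => u l (φ w)) 0 1 = s • fderiv ℝ (u l) z 1 := by
      rw [hder, one_mul, ← map_smul]
      congr 1
      rw [Complex.real_smul, mul_one]
    have hPP : PP D K F (u l z) (s • fderiv ℝ (u l) z 1) (fun j => h j z * s) := by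
      refine ⟨smul_ne_zero hs0.ne' him, fun _ w => u l (φ w), ε', hB', hder1, 1, one_pos, le_rfl,
        fun j w => h j (φ w) * deriv φ w, hL', fun j => ?_⟩
      simp only
      rw [hφ0, (hφd 0).deriv]
    refine ⟨him, fun j => ?_⟩
    obtain ⟨h1, h2⟩ := th_val hF hPP j
    have hsc : ∀ a b : ℂ, s • a = b * s → a = b := by
      intro a b hab
      rw [Complex.real_smul, mul_comm] at hab
      exact mul_right_cancel₀ hsne hab
    refine ⟨hsc _ _ (by rw [← map_smul]; exact h1), ?_⟩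
    rw [(hB.disc l).hol z hz2]
    refine hsc _ _ ?_
    rw [← map_smul, ← map_smul, h2]
    ring

/-- limits on a branch given by `Brs` only -/
theorem lim_branch {S : ICur D} {F : Fin 4 → ℕ → R4 → ℝ} (hloc : ∀ x ∈ S.supp, LocStr S x)
    (hF : ∀ j n, ContDiff ℝ ∞ (F j n)) (hLs : Lims S F) (hH3 : ∀ x ∈ S.supp, ∀ (N : ℕ)
    (u : Fin N → ℂ → R4) (k : Fin N → ℕ) (ε : ℝ), LS1 S x N u k ε →
    ∀ l, ∀ r > 0, r ≤ 1 → ∀ h : Fin 4 → ℂ → ℂ, (∀ j, Lim (F j) (u l) r (h j)) →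
      ∃ j, ∃ z ∈ ball (0 : ℂ) r, h j z ≠ 0) {x : R4} (hx : x ∈ S.supp) {N : ℕ}
    {u : Fin N → ℂ → R4} {ε : ℝ} (hB : Brs D S.supp x N u ε) (l : Fin N) :
    ∃ r > 0, r ≤ 1 ∧ ∃ h : Fin 4 → ℂ → ℂ, (∀ j, Lim (F j) (u l) r (h j)) ∧
      ∃ j, ∃ z ∈ ball (0 : ℂ) r, h j z ≠ 0 := by
  obtain ⟨N', u', k', ε', hB', hk', hval'⟩ := hloc x hx
  have hLS : LS1 S x N' u' k' ε' := ⟨hB', hk', hval'⟩
  obtain ⟨l', ρ, hρ, hρ1, φ, hφ, hinj, hφ0, hφ1, huv⟩ := repar_one hB hB' l
  obtain ⟨r', hr', hr1', h', hL'⟩ := hLs x hx N' u' k' ε' hLS l'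
  have hφd : DifferentiableAt ℂ φ 0 :=
    hφ.differentiableAt (isOpen_ball.mem_nhds (mem_ball_self hρ))
  have h1 : ∀ᶠ z in 𝓝 (0 : ℂ), φ z ∈ ball (0 : ℂ) r' :=
    hφd.continuousAt.eventually (by rw [hφ0]; exact ball_mem_nhds _ hr')
  obtain ⟨δ, hδ, h2⟩ := Metric.eventually_nhds_iff_ball.1 h1
  set s := min ρ δ with hs
  have hs0 : 0 < s := lt_min hρ hδ
  have hsρ : ball (0 : ℂ) s ⊆ ball 0 ρ := ball_subset_ball (min_le_left _ _)
  have hsδ : ball (0 : ℂ) s ⊆ ball 0 δ := ball_subset_ball (min_le_right _ _)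
  have h3 : ∀ j, Lim (F j) (u l) s (fun z => h' j (φ z) * deriv φ z) := fun j =>
    Lim.chg (hF j) (Brs.smooth hB' l') hr1' (hL' j) (hφ.mono hsρ) (hinj.mono hsρ)
      (fun z hz => h2 z (hsδ hz)) (fun z hz => huv z (hsρ hz))
  refine ⟨s, hs0, (min_le_left _ _).trans hρ1, _, h3, ?_⟩
  by_contra hcon
  push Not at hcon
  -- the image of a small ball is a neighbourhood of zero
  have hφa : AnalyticAt ℂ φ 0 := hφ.analyticAt (isOpen_ball.mem_nhds (mem_ball_self hρ))
  have hopen : 𝓝 (φ 0) ≤ Filter.map φ (𝓝 0) := by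
    rcases hφa.eventually_constant_or_nhds_le_map_nhds with hc | hc
    · exfalso
      obtain ⟨η, hη, hc'⟩ := Metric.eventually_nhds_iff_ball.1 hc
      set t : ℝ := min η ρ / 2 with ht
      have hmin : 0 < min η ρ := lt_min hη hρ
      have ht0 : 0 < t := by positivity
      have htn : ‖(t : ℂ)‖ = t := by rw [Complex.norm_real, Real.norm_eq_abs, abs_of_pos ht0]
      have ht1 : (t : ℂ) ∈ ball (0 : ℂ) (min η ρ) := by
        rw [mem_ball_zero_iff, htn, ht]; linarith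
      have ht2 : (t : ℂ) ∈ ball (0 : ℂ) η := ball_subset_ball (min_le_left _ _) ht1
      have ht3 : (t : ℂ) ∈ ball (0 : ℂ) ρ := ball_subset_ball (min_le_right _ _) ht1
      have h4 := hinj ht3 (mem_ball_self hρ) (hc' _ ht2)
      exact ht0.ne' (by exact_mod_cast h4)
    · exact hc
  have hderiv : ∀ᶠ z in 𝓝[≠] (0 : ℂ), deriv φ z ≠ 0 := by
    have hda : AnalyticAt ℂ (deriv φ) 0 := hφa.deriv
    rcases hda.eventually_eq_zero_or_eventually_ne_zero with hc | hc
    · exfalso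
      -- then φ is locally constant
      obtain ⟨η, hη, hc'⟩ := Metric.eventually_nhds_iff_ball.1
        (hc.and (isOpen_ball.mem_nhds (mem_ball_self hρ)))
      have hcst : ∀ z ∈ ball (0 : ℂ) η, φ z = φ 0 := by
        intro z hz
        refine (convex_ball (0 : ℂ) η).is_const_of_fderivWithin_eq_zero (𝕜 := ℂ)
          (fun w hw => (hφ.differentiableAt (isOpen_ball.mem_nhds (hc' w hw).2)).differentiableWithinAt)
          (fun w hw => ?_) hz (mem_ball_self hη)
        rw [fderivWithin_of_isOpen isOpen_ball hw]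
        ext
        simpa using (hc' w hw).1
      set t : ℝ := min η ρ / 2 with ht
      have hmin : 0 < min η ρ := lt_min hη hρ
      have ht0 : 0 < t := by positivity
      have htn : ‖(t : ℂ)‖ = t := by rw [Complex.norm_real, Real.norm_eq_abs, abs_of_pos ht0]
      have ht1 : (t : ℂ) ∈ ball (0 : ℂ) (min η ρ) := by
        rw [mem_ball_zero_iff, htn, ht]; linarith
      have h4 := hinj (ball_subset_ball (min_le_right _ _) ht1) (mem_ball_self hρ)
        (hcst _ (ball_subset_ball (min_le_left _ _) ht1))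
      exact ht0.ne' (by exact_mod_cast h4)
    · exact hc
  -- `h' j` vanishes near zero
  have hvan : ∀ j, ∀ᶠ w in 𝓝[≠] (0 : ℂ), h' j w = 0 := by
    intro j
    have h5 : ∀ᶠ z in 𝓝[≠] (0 : ℂ), h' j (φ z) = 0 := by
      filter_upwards [hderiv, mem_nhdsWithin_of_mem_nhds (ball_mem_nhds (0 : ℂ) hs0)] with z hz hzs
      have := hcon j z hzs
      exact (mul_eq_zero.1 this).resolve_right hz
    have h6 : ∀ᶠ z in 𝓝 (0 : ℂ), z ≠ 0 → h' j (φ z) = 0 := by
      rw [eventually_nhdsWithin_iff] at h5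
      exact h5
    obtain ⟨η, hη, h7⟩ := Metric.eventually_nhds_iff_ball.1 h6
    have h8 : φ '' ball 0 η ∈ 𝓝 (φ 0) :=
      hopen (mem_map.2 (mem_of_superset (ball_mem_nhds (0 : ℂ) hη) (subset_preimage_image _ _)))
    rw [hφ0] at h8
    rw [eventually_nhdsWithin_iff]
    filter_upwards [h8] with w hw hw0
    obtain ⟨z, hz, rfl⟩ := hw
    refine h7 z hz fun hz0 => hw0 ?_
    rw [hz0, hφ0]
    rfl
  have hzero : ∀ j, ∀ w ∈ ball (0 : ℂ) r', h' j w = 0 := by
    intro j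
    have ha : AnalyticOnNhd ℂ (h' j) (ball 0 r') := (hL' j).hol.analyticOnNhd isOpen_ball
    have := ha.eqOn_zero_of_preconnected_of_frequently_eq_zero
      (convex_ball (0 : ℂ) r').isPreconnected (mem_ball_self hr') (hvan j).frequently
    exact fun w hw => this hw
  obtain ⟨j, z, hz, hne⟩ := hH3 x hx N' u' k' ε' hLS l' r' hr' hr1' h' hL'
  exact hne (hzero j z hz)

end Vale.Agent.P247.H306
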