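import Vale.Agent.P247.H306.HodC
import Vale.Agent.P247.H710.CntA

/-!
# P247, stage 2, HODGE: a generic combination of the limit forms, assembly
-/

open scoped ContDiff Topology ENNReal
open Set MeasureTheory Filter Metric

noncomputable section

namespace Vale.Agent.P247.H306

open Vale.Agent.P247.H74 Vale.Agent.P247.H574 Vale.Agent.P247.H690.HD

variable {D : Data}

/-- Countably many proper subspaces do not cover. -/
theorem gen_countable {ι : Type*} [Countable ι] (p : ι → Submodule ℂ (Fin 4 → ℂ))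
    (hp : ∀ i, p i ≠ ⊤) : ∃ c : Fin 4 → ℂ, ∀ i, c ∉ p i := by
  by_contra hcon
  push Not at hcon
  have h1 : ∀ i, volume ((p i : Set (Fin 4 → ℂ))) = 0 := by
    intro i
    have h2 := Measure.addHaar_submodule (volume : Measure (Fin 4 → ℂ))
      ((p i).restrictScalars ℝ) (by
        intro h
        apply hp i
        rw [Submodule.restrictScalars_eq_top_iff] at h
        exact h)
    exact h2
  have h3 : (univ : Set (Fin 4 → ℂ)) ⊆ ⋃ i, (p i : Set (Fin 4 → ℂ)) := fun c _ => by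
    obtain ⟨i, hi⟩ := hcon c
    exact mem_iUnion.2 ⟨i, hi⟩
  have h4 : volume (univ : Set (Fin 4 → ℂ)) = 0 :=
    measure_mono_null h3 (measure_iUnion_null h1)
  exact isOpen_univ.measure_ne_zero _ univ_nonempty h4

/-- the four forms `Θ j` are given on the branch `u` by the holomorphic functions `h j` -/
structure BD (K : Set R4) (Θ : Fin 4 → R4 → R4 →L[ℝ] ℂ) (N : ℕ) (u : ℂ → R4) (r ρ : ℝ)
    (h : Fin 4 → ℂ → ℂ) : Prop where
  r_pos : 0 < r
  ρ_pos : 0 < ρ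
  ρr : ρ ≤ r
  r1 : r ≤ 1
  hol : ∀ j, DifferentiableOn ℂ (h j) (ball 0 r)
  ne : ∃ j, ∃ z ∈ ball (0 : ℂ) r, h j z ≠ 0
  val : ∀ z ∈ ball (0 : ℂ) ρ, (z ≠ 0 ∨ (N = 1 ∧ fderiv ℝ u 0 1 ≠ 0)) →
    fderiv ℝ u z 1 ≠ 0 ∧ ∀ j, Θ j (u z) (fderiv ℝ u z 1) = h j z ∧
      Θ j (u z) (fderiv ℝ u z Complex.I) = Complex.I * h j z

theorem BD.val_all {K : Set R4} {Θ : Fin 4 → R4 → R4 →L[ℝ] ℂ} {N : ℕ} {u : ℂ → R4} {r ρ : ℝ}
    {h : Fin 4 → ℂ → ℂ} (hb : BD K Θ N u r ρ h) {z : ℂ} (hz : z ∈ ball (0 : ℂ) ρ) (h0 : z ≠ 0)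
    (j : Fin 4) (w : ℂ) : Θ j (u z) (fderiv ℝ u z w) = w * h j z := by
  obtain ⟨h1, h2⟩ := (hb.val z hz (Or.inl h0)).2 j
  have h3 : w = w.re • (1 : ℂ) + w.im • Complex.I := by
    apply Complex.ext <;> simp
  have hw' : (w.re : ℂ) + w.im * Complex.I = w := Complex.re_add_im w
  conv_lhs => rw [h3]
  rw [map_add, map_smul, map_smul, map_add, map_smul, map_smul, h1, h2, Complex.real_smul,
    Complex.real_smul]
  linear_combination h j z * hw'

/-- generic combinations do not vanish identically on any branch -/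
theorem generic {K : Set R4} {Θ : Fin 4 → R4 → R4 →L[ℝ] ℂ}
    (hK : ∀ x ∈ K, ∃ (N : ℕ) (u : Fin N → ℂ → R4) (ε : ℝ), Brs D K x N u ε)
    (H : ∀ x ∈ K, ∀ (N : ℕ) (u : Fin N → ℂ → R4) (ε : ℝ), Brs D K x N u ε → ∀ l,
      ∃ r ρ h, BD K Θ N (u l) r ρ h) :
    ∃ c : Fin 4 → ℂ, ∀ x ∈ K, ∀ (N : ℕ) (u : Fin N → ℂ → R4) (ε : ℝ), Brs D K x N u ε → ∀ l,
      ∀ r ρ h, BD K Θ N (u l) r ρ h → ¬ ∀ᶠ z in 𝓝[≠] (0 : ℂ), ∑ j, c j * h j z = 0 := by
  choose N u ε hB using fun x : K => hK x.1 x.2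
  choose r ρ h hb using fun (x : K) (l : Fin (N x)) => H x.1 x.2 (N x) (u x) (ε x) (hB x) l
  -- common radius
  have hρ : ∀ x : K, ∃ ρ' > 0, ∀ l, ρ' ≤ ρ x l := by
    intro x
    have hne : (Finset.univ : Finset (Fin (N x))).Nonempty :=
      ⟨⟨0, (hB x).posN⟩, Finset.mem_univ _⟩
    refine ⟨Finset.univ.inf' hne (ρ x), ?_, fun l => Finset.inf'_le _ (Finset.mem_univ l)⟩
    rw [gt_iff_lt, Finset.lt_inf'_iff]
    exact fun l _ => (hb x l).ρ_pos
  choose ρ' hρ'0 hρ' using hρ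
  choose ε' hε'0 hε' hcov using fun x : K => H710.brs_cov (hB x) (hρ'0 x)
  -- countable cover
  obtain ⟨T, hT, hTU⟩ := TopologicalSpace.isOpen_iUnion_countable
    (fun x : K => ball (x : R4) (ε' x)) fun x => isOpen_ball
  have hTc : Countable T := hT.to_subtype
  -- bad subspaces
  set P : (Σ x : T, Fin (N x.1)) → Submodule ℂ (Fin 4 → ℂ) := fun i =>
    { carrier := {c | ∀ z ∈ ball (0 : ℂ) (r i.1.1 i.2), ∑ j, c j * h i.1.1 i.2 j z = 0}
      add_mem' := by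
        intro a b ha hb z hz
        simp only [Pi.add_apply, add_mul, Finset.sum_add_distrib]
        rw [ha z hz, hb z hz, add_zero]
      zero_mem' := by
        intro z hz
        simp
      smul_mem' := by
        intro a c hc z hz
        simp only [Pi.smul_apply, smul_eq_mul, mul_assoc]
        rw [← Finset.mul_sum, hc z hz, mul_zero] } with hP
  have hPt : ∀ i, P i ≠ ⊤ := by
    intro i htop
    obtain ⟨j, z, hz, hne⟩ := (hb i.1.1 i.2).ne
    have h1 : (Pi.single j 1 : Fin 4 → ℂ) ∈ P i := by rw [htop]; trivial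
    have h2 := h1 z hz
    simp only [Pi.single_apply, ite_mul, one_mul, zero_mul, Finset.sum_ite_eq', Finset.mem_univ,
      if_true] at h2
    exact hne h2
  obtain ⟨c, hc⟩ := gen_countable P hPt
  refine ⟨c, fun x hx M v e hBv l R σ g hg hzero => ?_⟩
  -- the point of the cover
  obtain ⟨p, hpT, hpx⟩ : ∃ p ∈ T, x ∈ ball (p : R4) (ε' p) := by
    have h1 : x ∈ ⋃ y : K, ball (y : R4) (ε' y) :=
      mem_iUnion.2 ⟨⟨x, hx⟩, mem_ball_self (hε'0 _)⟩
    rw [← hTU] at h1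
    simpa using h1
  -- choose a point of the branch
  have hvc : ContinuousAt (v l) 0 :=
    ((hBv.disc l).smooth.contDiffAt (isOpen_ball.mem_nhds (mem_ball_self (by norm_num)))).continuousAt
  have e1 : ∀ᶠ z in 𝓝 (0 : ℂ), v l z ∈ ball (p : R4) (ε' p) :=
    hvc.eventually (by rw [hBv.zero l]; exact isOpen_ball.mem_nhds hpx)
  have e2 : ∀ᶠ z in 𝓝 (0 : ℂ), v l z ∈ ball x e :=
    hvc.eventually (by rw [hBv.zero l]; exact ball_mem_nhds _ hBv.posε)
  have e3 : ∀ᶠ z in 𝓝[≠] (0 : ℂ), v l z ≠ (p : R4) := by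
    by_cases hpx' : (p : R4) = x
    · rw [eventually_nhdsWithin_iff]
      filter_upwards [ball_mem_nhds (0 : ℂ) (by norm_num : (0 : ℝ) < 2)] with z hz hz0
      rw [hpx']
      exact H710.brs_ne hBv l hz hz0
    · apply eventually_nhdsWithin_of_eventually_nhds
      exact hvc.eventually_ne (by rw [hBv.zero l]; exact fun h => hpx' h.symm)
  have e4 : ∀ᶠ z in 𝓝[≠] (0 : ℂ), z ∈ ball (0 : ℂ) σ ∧ v l z ∈ ball (p : R4) (ε' p) ∧
      v l z ∈ ball x e ∧ v l z ≠ (p : R4) ∧ ∑ j, c j * g j z = 0 := by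
    filter_upwards [mem_nhdsWithin_of_mem_nhds (ball_mem_nhds (0 : ℂ) hg.ρ_pos),
      mem_nhdsWithin_of_mem_nhds e1, mem_nhdsWithin_of_mem_nhds e2, e3, hzero] with z a b c d f
    exact ⟨a, b, c, d, f⟩
  rw [eventually_nhdsWithin_iff] at e4
  obtain ⟨η, hη, e5⟩ := Metric.eventually_nhds_iff_ball.1 e4
  set z₁ : ℂ := ((η / 2 : ℝ) : ℂ) with hz₁
  have hz₁n : ‖z₁‖ = η / 2 := by
    rw [hz₁, Complex.norm_real, Real.norm_eq_abs, abs_of_pos (by positivity)]
  have hz₁0 : z₁ ≠ 0 := by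
    intro h0
    rw [h0, norm_zero] at hz₁n
    linarith
  have hz₁η : z₁ ∈ ball (0 : ℂ) η := by rw [mem_ball_zero_iff, hz₁n]; linarith
  obtain ⟨-, f2, f3, f4, -⟩ := e5 z₁ hz₁η hz₁0
  -- the same point on a disc at `p`
  have hy₁K : v l z₁ ∈ K := hBv.mem l z₁ (by
    have := (e5 z₁ hz₁η hz₁0).1
    exact ball_subset_ball (by linarith [hg.ρr, hg.r1]) this)
  obtain ⟨m, w₁, hw₁ρ, hw₁1, hw₁e⟩ := hcov p (v l z₁) f2 hy₁K
  have hw₁0 : w₁ ≠ 0 := by
    intro h0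
    rw [h0, (hB p).zero m] at hw₁e
    exact f4 hw₁e.symm
  have hw₁b : w₁ ∈ ball (0 : ℂ) (ρ p m) := by
    rw [mem_ball_zero_iff]
    exact hw₁ρ.trans_le (hρ' p m)
  have hz₁1 : ‖z₁‖ < 1 := by
    have h1 := (e5 z₁ hz₁η hz₁0).1
    rw [mem_ball_zero_iff] at h1
    linarith [hg.ρr, hg.r1]
  -- near `w₁` the combination vanishes
  have key : ∀ᶠ w in 𝓝 w₁, ∑ j, c j * h p m j w = 0 := by
    have hr1 : 0 < min (η - ‖z₁‖) ‖z₁‖ := by
      apply lt_min
      · rw [hz₁n]; linarith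
      · rw [hz₁n]; linarith
    obtain ⟨ε₁, hε₁, hloc⟩ := H710.brs_local hBv l hz₁1 hz₁0 (mem_ball.1 f3) hr1
    have hw₁2 : w₁ ∈ ball (0 : ℂ) 2 := by rw [mem_ball_zero_iff]; linarith
    have huc : ContinuousAt (u p m) w₁ :=
      (((hB p).disc m).smooth.contDiffAt (isOpen_ball.mem_nhds hw₁2)).continuousAt
    filter_upwards [isOpen_ball.mem_nhds hw₁b, isOpen_ne.mem_nhds hw₁0,
      isOpen_ball.mem_nhds hw₁2,
      huc.eventually (by rw [hw₁e]; exact ball_mem_nhds _ hε₁)] with w hwρ hw0 hw2 hwy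
    have hwK : u p m w ∈ K := (hB p).mem m w hw2
    obtain ⟨t, ht, hte⟩ := hloc _ hwy hwK
    set z₂ := z₁ + t with hz₂
    have ht1 : ‖t‖ < η - ‖z₁‖ := ht.trans_le (min_le_left _ _)
    have ht2 : ‖t‖ < ‖z₁‖ := ht.trans_le (min_le_right _ _)
    have hz₂η : z₂ ∈ ball (0 : ℂ) η := by
      rw [mem_ball_zero_iff]
      linarith [norm_add_le z₁ t]
    have hz₂0 : z₂ ≠ 0 := by
      intro h0
      have h1 : t = -z₁ := by rw [eq_neg_iff_add_eq_zero, add_comm]; exact h0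
      rw [h1, norm_neg] at ht2
      exact lt_irrefl _ ht2
    obtain ⟨g1, -, g3, -, g5⟩ := e5 z₂ hz₂η hz₂0
    have hz₂1 : ‖z₂‖ < 1 := by
      rw [mem_ball_zero_iff] at g1
      linarith [hg.ρr, hg.r1]
    have hz₂2 : z₂ ∈ ball (0 : ℂ) 2 := by rw [mem_ball_zero_iff]; linarith
    have hvd : ContDiffAt ℝ ∞ (v l) z₂ := (hBv.disc l).smooth.contDiffAt (isOpen_ball.mem_nhds hz₂2)
    have hfd : fderiv ℝ (fun s => v l (z₂ + s)) 0 = fderiv ℝ (v l) z₂ := by
      have h1 : HasFDerivAt (v l) (fderiv ℝ (v l) z₂) (z₂ + 0) := by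
        rw [add_zero]; exact (hvd.differentiableAt (by simp)).hasFDerivAt
      have h2 := h1.comp (0 : ℂ) ((hasFDerivAt_id (0 : ℂ)).const_add z₂)
      exact h2.fderiv
    have him := (hg.val z₂ g1 (Or.inl hz₂0)).1
    have htan := H690.END.tangent (C := K) (u := fun s => v l (z₂ + s)) (v := u p m) (s := w)
      (T := fderiv ℝ (u p m) w) (by
        have h1 : ContDiffAt ℝ 1 (v l) (z₂ + 0) := by
          rw [add_zero]; exact hvd.of_le (by simp)
        exact h1.comp 0 (contDiffAt_const.add contDiffAt_id))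
      (by
        intro ζ hζ
        rw [hfd] at hζ
        exact H821.Brs.fderiv_inj hBv l hz₂2 him hζ)
      (by
        intro δ hδ
        obtain ⟨ε₂, hε₂, hloc₂⟩ := H710.brs_local hBv l hz₂1 hz₂0 (mem_ball.1 g3) hδ
        rw [add_zero, mem_nhdsWithin]
        refine ⟨ball (v l z₂) ε₂, isOpen_ball, mem_ball_self hε₂, ?_⟩
        rintro y ⟨hy1, hy2⟩
        obtain ⟨s, hs, hse⟩ := hloc₂ y hy1 hy2
        exact ⟨s, by rw [mem_ball_zero_iff]; exact hs, hse⟩)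
      ((((hB p).disc m).smooth.contDiffAt (isOpen_ball.mem_nhds hw2)).differentiableAt
        (by simp)).hasFDerivAt
      (by rw [add_zero]; exact hte.symm)
      (by
        filter_upwards [isOpen_ball.mem_nhds hw2] with s hs
        exact (hB p).mem m s hs) 1
    obtain ⟨ζ', hζ'⟩ := htan
    rw [hfd] at hζ'
    have h5 : ∀ j, h p m j w = ζ' * g j z₂ := by
      intro j
      rw [← ((hb p m).val w hwρ (Or.inl hw0)).2 j |>.1, hζ', ← hte]
      exact hg.val_all g1 hz₂0 j ζ'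
    calc ∑ j, c j * h p m j w = ζ' * ∑ j, c j * g j z₂ := by
          rw [Finset.mul_sum]
          refine Finset.sum_congr rfl fun j _ => ?_
          rw [h5 j]; ring
      _ = 0 := by rw [g5, mul_zero]
  -- identity theorem
  have hdiff : DifferentiableOn ℂ (fun w => ∑ j, c j * h p m j w) (ball 0 (r p m)) := by
    apply DifferentiableOn.fun_sum
    intro j _
    exact ((hb p m).hol j).const_mul (c j)
  have hw₁r : w₁ ∈ ball (0 : ℂ) (r p m) := ball_subset_ball (hb p m).ρr hw₁b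
  have hall := (hdiff.analyticOnNhd isOpen_ball).eqOn_zero_of_preconnected_of_eventuallyEq_zero
    (convex_ball (0 : ℂ) (r p m)).isPreconnected hw₁r key
  exact hc ⟨⟨p, hpT⟩, m⟩ fun z hz => hall hz

/-- Assembly of the Hodge package. -/
theorem HODGEX : HODGEX_statement := by
  intro hMIN hWEYL hLIMS hH3 _ _ _ D hGood S hloc
  obtain ⟨F, hFM⟩ := hMIN D S
  have hLs : Lims S F := hLIMS hWEYL D S F hFM
  have hM : ∀ j, Mini S j (F j) := fun j => (hFM j).1
  have hF : ∀ j n, ContDiff ℝ ∞ (F j n) := fun j n => (hM j).smooth n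
  have hper : ∀ j n (k : Fin 4 → ℤ) x, F j n (tr k x) = F j n x + k j := fun j n k x =>
    (hM j).per n k x
  have hKt : ∀ (k : Fin 4 → ℤ) x, x ∈ S.supp → tr k x ∈ S.supp := fun k x hx =>
    H690.END.supp_tr S hx k
  set Θ : Fin 4 → R4 → R4 →L[ℝ] ℂ := Th D S.supp F with hΘ
  have H : ∀ x ∈ S.supp, ∀ (N : ℕ) (u : Fin N → ℂ → R4) (ε : ℝ), Brs D S.supp x N u ε → ∀ l,
      ∃ r ρ h, BD S.supp Θ N (u l) r ρ h := by
    intro x hx N u ε hB l
    obtain ⟨r, hr, hr1, h, hL, hne⟩ := lim_branch hloc hF hLs (hH3 D S F hloc hM hLs) hx hB l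
    obtain ⟨ρ, hρ, hρr, hval⟩ := th_branch hF hB l hr hr1 hL
    exact ⟨r, ρ, h, hr, hρ, hρr, hr1, fun j => (hL j).hol, hne, hval⟩
  have hK : ∀ x ∈ S.supp, ∃ (N : ℕ) (u : Fin N → ℂ → R4) (ε : ℝ), Brs D S.supp x N u ε := by
    intro x hx
    obtain ⟨N, u, k, ε, hB, -, -⟩ := hloc x hx
    exact ⟨N, u, ε, hB⟩
  obtain ⟨c, hc⟩ := generic hK H
  refine ⟨fun x => ∑ j, c j • Θ j x, ?_, ?_⟩
  · intro k x
    simp only [hΘ, th_per hKt hper]
  · intro x hx N u ε hB l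
    obtain ⟨r, ρ, h, hb⟩ := H x hx N u ε hB l
    have hdiff : DifferentiableOn ℂ (fun w => ∑ j, c j * h j w) (ball 0 r) := by
      apply DifferentiableOn.fun_sum
      intro j _
      exact (hb.hol j).const_mul (c j)
    have ha : AnalyticAt ℂ (fun w => ∑ j, c j * h j w) 0 :=
      hdiff.analyticAt (isOpen_ball.mem_nhds (mem_ball_self hb.r_pos))
    have hne : ∀ᶠ z in 𝓝[≠] (0 : ℂ), ∑ j, c j * h j z ≠ 0 := by
      rcases ha.eventually_eq_zero_or_eventually_ne_zero with h1 | h1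
      · exact absurd (h1.filter_mono nhdsWithin_le_nhds) (hc x hx N u ε hB l r ρ h hb)
      · exact h1
    rw [eventually_nhdsWithin_iff] at hne
    obtain ⟨η, hη, h2⟩ := Metric.eventually_nhds_iff_ball.1 hne
    refine ⟨min η ρ, lt_min hη hb.ρ_pos, fun w => ∑ j, c j * h j w,
      hdiff.mono (ball_subset_ball ((min_le_right _ _).trans hb.ρr)), fun z hz hz0 =>
      h2 z (ball_subset_ball (min_le_left _ _) hz) hz0, fun z hz hcase => ?_⟩
    obtain ⟨-, h3⟩ := hb.val z (ball_subset_ball (min_le_right _ _) hz) hcase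
    constructor
    · rw [sum_apply]
      refine Finset.sum_congr rfl fun j _ => ?_
      rw [smul_apply, (h3 j).1, smul_eq_mul]
    · rw [sum_apply, Finset.mul_sum]
      refine Finset.sum_congr rfl fun j _ => ?_
      rw [smul_apply, (h3 j).2, smul_eq_mul]
      ring

end Vale.Agent.P247.H306
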