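import Vale.Agent.P247.H690.HD.Sta
import Vale.Agent.P271.H408.Ext
import Vale.Agent.P363.R.Sob.LocApprox

/-!
# P247, stage 2, HODGE: Weyl's lemma in the punctured disc, generic combinations
-/

open scoped ContDiff Topology ENNReal
open Set MeasureTheory Filter Metric

noncomputable section

namespace Vale.Agent.P247.H306

open Vale.Agent.P247.H74 Vale.Agent.P247.H574 Vale.Agent.P363.R.Sob

/-- derivative of a mollification, tested against the translated kernel -/
theorem fderiv_moll_apply (ρ : ContDiffBump (0 : ℂ)) {f : ℂ → ℂ} (hf : LocallyIntegrable f volume)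
    (x v : ℂ) : fderiv ℝ (moll volume ρ f) x v =
      -∫ s, (fderiv ℝ (fun s => ρ.normed volume (x - s)) s v) • f s := by
  have h1 := (ρ.hasCompactSupport_normed (μ := volume)).hasFDerivAt_convolution_left
    (ContinuousLinearMap.lsmul ℝ ℝ) (ρ.contDiff_normed (n := 1)) hf x
  rw [moll, h1.fderiv]
  rw [convolution_def]
  have hint : Integrable (fun t => (ContinuousLinearMap.precompL ℂ
      (ContinuousLinearMap.lsmul ℝ ℝ : ℝ →L[ℝ] ℂ →L[ℝ] ℂ))
      (fderiv ℝ (ρ.normed volume) t) (f (x - t))) volume := by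
    have := ((ρ.hasCompactSupport_normed (μ := volume)).fderiv ℝ).convolutionExists_left
      (ContinuousLinearMap.precompL ℂ (ContinuousLinearMap.lsmul ℝ ℝ : ℝ →L[ℝ] ℂ →L[ℝ] ℂ))
      ((ρ.contDiff_normed (n := 1)).continuous_fderiv (by simp)) hf x
    exact this
  rw [ContinuousLinearMap.integral_apply hint]
  simp only [ContinuousLinearMap.precompL_apply, ContinuousLinearMap.lsmul_apply]
  have e1 : ∫ t, (fderiv ℝ (ρ.normed volume) t v) • f (x - t)
      = ∫ s, (fderiv ℝ (ρ.normed volume) (x - s) v) • f s := by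
    rw [← integral_sub_left_eq_self (fun s => (fderiv ℝ (ρ.normed volume) (x - s) v) • f s)
      volume x]
    simp
  rw [e1]
  have e3 : ∀ s, fderiv ℝ (fun s => ρ.normed volume (x - s)) s v =
      - fderiv ℝ (ρ.normed volume) (x - s) v := by
    intro s
    have hd : HasFDerivAt (ρ.normed volume) (fderiv ℝ (ρ.normed volume) (x - s)) (x - s) :=
      ((ρ.contDiff_normed (n := 1)).differentiable (by simp) _).hasFDerivAt
    have := hd.comp s ((hasFDerivAt_const x s).sub (hasFDerivAt_id s))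
    have e4 : (fun s => ρ.normed volume (x - s)) = (ρ.normed volume) ∘ (fun s => x - s) := rfl
    rw [e4]
    rw [HasFDerivAt.fderiv this]
    simp
  simp only [e3, neg_smul, integral_neg, neg_neg]

theorem tsupport_normed_sub (ρ : ContDiffBump (0 : ℂ)) (x : ℂ) :
    tsupport (fun s => ρ.normed volume (x - s)) ⊆ closedBall x ρ.rOut := by
  refine closure_minimal ?_ isClosed_closedBall
  intro s hs
  have h1 : x - s ∈ Function.support (ρ.normed volume) := hs
  rw [ρ.support_normed_eq, mem_ball_zero_iff] at h1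
  rw [mem_closedBall, dist_comm, dist_eq_norm]
  exact h1.le

/-- Weyl's lemma for `∂̄` on a ball. -/
theorem weyl_ball {z₀ : ℂ} {δ : ℝ} (hδ : 0 < δ) {g : ℂ → ℂ}
    (hg : MemLp g 2 (volume.restrict (ball z₀ δ)))
    (hw : ∀ ψ : ℂ → ℝ, ContDiff ℝ ∞ ψ → HasCompactSupport ψ → tsupport ψ ⊆ ball z₀ δ →
      ∫ z in ball z₀ δ, g z * ((fderiv ℝ ψ z 1 : ℂ) + Complex.I * (fderiv ℝ ψ z Complex.I : ℂ)) = 0) :
    ∃ h : ℂ → ℂ, DifferentiableOn ℂ h (ball z₀ (δ / 2)) ∧
      ∀ᵐ z ∂volume.restrict (ball z₀ (δ / 2)), g z = h z := by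
  set G : ℂ → ℂ := (ball z₀ δ).indicator g with hG
  have hGm : MemLp G 2 volume := (memLp_indicator_iff_restrict measurableSet_ball).2 hg
  have hGl : LocallyIntegrable G volume := hGm.locallyIntegrable (by norm_num)
  set Gn : ℕ → ℂ → ℂ := fun n => moll volume (stdBump n) G with hGn
  have hsm : ∀ n, ContDiff ℝ ∞ (Gn n) := fun n => moll_contDiff _ hGl
  -- the mollifications are holomorphic inside
  have hhol : ∀ᶠ n : ℕ in atTop, DifferentiableOn ℂ (Gn n) (ball z₀ (3 * δ / 4)) := by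
    have h1 : ∀ᶠ n : ℕ in atTop, (stdBump n : ContDiffBump (0 : ℂ)).rOut < δ / 4 :=
      (tendsto_stdBump_rOut (E := ℂ)).eventually (gt_mem_nhds (by positivity))
    filter_upwards [h1] with n hn x hx
    refine DifferentiableAt.differentiableWithinAt ?_
    rw [differentiableAt_complex_iff_differentiableAt_real]
    refine ⟨(hsm n).differentiable (by simp) x, ?_⟩
    have ht : Test (fun s => (stdBump n : ContDiffBump (0 : ℂ)).normed volume (x - s)) :=
      test_normed_sub (μ := volume) _ x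
    have hs : tsupport (fun s => (stdBump n : ContDiffBump (0 : ℂ)).normed volume (x - s)) ⊆
        ball z₀ δ := by
      refine (tsupport_normed_sub _ x).trans fun s hs => ?_
      have h2 := dist_triangle s x z₀
      rw [mem_ball] at hx ⊢
      rw [mem_closedBall] at hs
      linarith
    have h3 := hw _ ht.1 ht.2 hs
    rw [← integral_indicator measurableSet_ball] at h3
    have e1 : ∀ v : ℂ, Integrable (fun s => (fderiv ℝ
        (fun s => (stdBump n : ContDiffBump (0 : ℂ)).normed volume (x - s)) s v) • G s) volume :=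
      fun v => (ht.fderiv v).integrable_smul hGl
    have e2 : fderiv ℝ (Gn n) x 1 + Complex.I * fderiv ℝ (Gn n) x Complex.I = 0 := by
      rw [hGn]
      simp only
      rw [fderiv_moll_apply _ hGl, fderiv_moll_apply _ hGl, mul_neg, ← neg_add, neg_eq_zero,
        ← integral_const_mul, ← integral_add (e1 1) ((e1 Complex.I).const_mul _)]
      refine Eq.trans ?_ h3
      refine integral_congr_ae (Eventually.of_forall fun s => ?_)
      simp only [hG]
      by_cases hsb : s ∈ ball z₀ δ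
      · rw [indicator_of_mem hsb, indicator_of_mem hsb, Complex.real_smul, Complex.real_smul]
        ring
      · rw [indicator_of_notMem hsb, indicator_of_notMem hsb]
        simp
    have e3 : Complex.I * (fderiv ℝ (Gn n) x 1 + Complex.I * fderiv ℝ (Gn n) x Complex.I) = 0 := by
      rw [e2, mul_zero]
    rw [mul_add, ← mul_assoc, Complex.I_mul_I] at e3
    rw [smul_eq_mul]
    linear_combination -e3
  -- L² convergence
  have : Fact ((1 : ℝ≥0∞) ≤ 2) := ⟨by norm_num⟩
  have hconv : Tendsto (fun n => eLpNorm (Gn n - G) 2 volume) atTop (𝓝 0) :=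
    tendsto_moll_std (by norm_num) hGm
  have hmeas : ∀ n, AEStronglyMeasurable (Gn n) volume := fun n =>
    (hsm n).continuous.aestronglyMeasurable
  -- uniform Cauchy estimate
  set V : ℝ≥0∞ := volume (ball (0 : ℂ) (δ / 4)) with hV
  have hV0 : V ≠ 0 := (measure_ball_pos _ _ (by positivity)).ne'
  have hVt : V ≠ ⊤ := measure_ball_lt_top.ne
  have hest : ∀ᶠ N : ℕ in atTop, ∀ n ≥ N, ∀ m ≥ N, ∀ w ∈ ball z₀ (δ / 2),
      ‖Gn n w - Gn m w‖ₑ ^ 2 * V ≤ (eLpNorm (Gn n - G) 2 volume + eLpNorm (Gn m - G) 2 volume) ^ 2 := by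
    obtain ⟨N, hN⟩ := eventually_atTop.1 hhol
    filter_upwards [eventually_ge_atTop N] with N' hN' n hn m hm w hw'
    have hd : DifferentiableOn ℂ (fun z => Gn n z - Gn m z) (ball w (δ / 4)) := by
      refine ((hN n (hN'.trans hn)).sub (hN m (hN'.trans hm))).mono fun z hz => ?_
      have := dist_triangle z w z₀
      rw [mem_ball] at hz hw' ⊢
      linarith
    have h1 := Vale.Agent.P271.H408.enorm_sq_mul_volume_le_one hd
    rw [Measure.addHaar_ball_center] at h1
    refine h1.trans ?_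
    have h2 : ∫⁻ z in ball w (δ / 4), ‖Gn n z - Gn m z‖ₑ ^ 2 ≤ ∫⁻ z, ‖(Gn n - Gn m) z‖ₑ ^ 2 :=
      setLIntegral_le_lintegral _ _
    refine h2.trans ?_
    have h3 : ∫⁻ z, ‖(Gn n - Gn m) z‖ₑ ^ 2 = eLpNorm (Gn n - Gn m) 2 volume ^ 2 := by
      have := eLpNorm_nnreal_pow_eq_lintegral (f := Gn n - Gn m) (μ := (volume : Measure ℂ))
        (p := 2) (by norm_num)
      simpa using this.symm
    rw [h3]
    gcongr
    have h4 : Gn n - Gn m = (Gn n - G) - (Gn m - G) := by abel
    rw [h4]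
    exact eLpNorm_sub_le ((hmeas n).sub hGm.1) ((hmeas m).sub hGm.1) (by norm_num)
  have hUC : UniformCauchySeqOn Gn atTop (ball z₀ (δ / 2)) := by
    rw [Metric.uniformCauchySeqOn_iff]
    intro ε hε
    -- choose the L² distance small
    have hc : ∃ c : ℝ≥0∞, 0 < c ∧ (c + c) ^ 2 < ENNReal.ofReal ε ^ 2 * V := by
      have hpos : 0 < ENNReal.ofReal ε ^ 2 * V := by
        have : 0 < ENNReal.ofReal ε := ENNReal.ofReal_pos.2 hε
        positivity
      have hcont : Tendsto (fun c : ℝ≥0∞ => (c + c) ^ 2) (𝓝 0) (𝓝 0) := by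
        have : Continuous fun c : ℝ≥0∞ => (c + c) ^ 2 := by fun_prop
        have h := this.tendsto 0
        simpa using h
      have h5 : ∀ᶠ c : ℝ≥0∞ in 𝓝 0, (c + c) ^ 2 < ENNReal.ofReal ε ^ 2 * V :=
        hcont.eventually (gt_mem_nhds hpos)
      have h6 : ∀ᶠ c : ℝ≥0∞ in 𝓝[>] 0, (c + c) ^ 2 < ENNReal.ofReal ε ^ 2 * V :=
        h5.filter_mono nhdsWithin_le_nhds
      obtain ⟨c, hc1, hc2⟩ := (h6.and self_mem_nhdsWithin).exists
      exact ⟨c, hc2, hc1⟩
    obtain ⟨c, hc0, hc⟩ := hc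
    have h7 : ∀ᶠ n in atTop, eLpNorm (Gn n - G) 2 volume < c := hconv.eventually (gt_mem_nhds hc0)
    obtain ⟨N1, hN1⟩ := eventually_atTop.1 h7
    obtain ⟨N2, hN2⟩ := eventually_atTop.1 hest
    refine ⟨max N1 N2, fun m hm n hn x hx => ?_⟩
    have h8 := hN2 (max N1 N2) (le_max_right _ _) m hm n hn x hx
    have h9 : (eLpNorm (Gn m - G) 2 volume + eLpNorm (Gn n - G) 2 volume) ^ 2 ≤ (c + c) ^ 2 := by
      gcongr
      · exact (hN1 m ((le_max_left _ _).trans hm)).le
      · exact (hN1 n ((le_max_left _ _).trans hn)).le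
    have h10 : ‖Gn m x - Gn n x‖ₑ ^ 2 * V < ENNReal.ofReal ε ^ 2 * V := (h8.trans h9).trans_lt hc
    have h11 : ‖Gn m x - Gn n x‖ₑ ^ 2 < ENNReal.ofReal ε ^ 2 :=
      lt_of_mul_lt_mul_right' h10
    have h12 : ‖Gn m x - Gn n x‖ₑ < ENNReal.ofReal ε := lt_of_pow_lt_pow_left' 2 h11
    rw [dist_eq_norm]
    rw [← ofReal_norm] at h12
    exact (ENNReal.ofReal_lt_ofReal_iff hε).1 h12
  -- the limit
  have hlim : ∀ w ∈ ball z₀ (δ / 2), ∃ l, Tendsto (fun n => Gn n w) atTop (𝓝 l) := fun w hw' =>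
    cauchySeq_tendsto_of_complete (hUC.cauchySeq hw')
  choose! h hh using hlim
  have hU : TendstoUniformlyOn Gn h atTop (ball z₀ (δ / 2)) :=
    hUC.tendstoUniformlyOn_of_tendsto fun x hx => hh x hx
  refine ⟨h, ?_, ?_⟩
  · refine hU.tendstoLocallyUniformlyOn.differentiableOn ?_ isOpen_ball
    filter_upwards [hhol] with n hn
    exact hn.mono (ball_subset_ball (by linarith))
  · have him : TendstoInMeasure volume Gn atTop G :=
      tendstoInMeasure_of_tendsto_eLpNorm (by norm_num) hmeas hGm.1 hconv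
    obtain ⟨ns, hns, hae⟩ := him.exists_seq_tendsto_ae
    filter_upwards [ae_restrict_of_ae hae, ae_restrict_mem measurableSet_ball] with x hx hxb
    have hxb' : x ∈ ball z₀ δ := ball_subset_ball (by linarith) hxb
    have h1 := (hh x hxb).comp hns.tendsto_atTop
    have h2 := tendsto_nhds_unique hx h1
    rw [← h2, hG, indicator_of_mem hxb']

/-- Two continuous functions which are almost everywhere equal on an open set are equal there. -/
theorem eqOn_of_ae_eq {U : Set ℂ} (hU : IsOpen U) {f g : ℂ → ℂ} (hf : ContinuousOn f U)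
    (hg : ContinuousOn g U) (h : ∀ᵐ z ∂volume.restrict U, f z = g z) : EqOn f g U :=
  Measure.eqOn_open_of_ae_eq h hU hf hg

/-- Weyl's lemma in the punctured disc. -/
theorem weyl : H690.HD.WEYL_statement := by
  intro r g hr hgm hgi hw
  have hL2 : MemLp g 2 (volume.restrict (ball 0 r)) := by
    rw [memLp_two_iff_integrable_sq_norm hgm]
    exact hgi
  set D : Set ℂ := ball 0 r \ {0} with hD
  have hDo : IsOpen D := isOpen_ball.sdiff isClosed_singleton
  have hloc : ∀ z₀ ∈ D, ∃ δ > 0, ball z₀ δ ⊆ D ∧ ∃ h : ℂ → ℂ, DifferentiableOn ℂ h (ball z₀ δ) ∧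
      ∀ᵐ z ∂volume.restrict (ball z₀ δ), g z = h z := by
    intro z₀ hz₀
    obtain ⟨δ, hδ, hδD⟩ := Metric.isOpen_iff.1 hDo z₀ hz₀
    have hsub : ball z₀ δ ⊆ ball 0 r := hδD.trans sdiff_subset
    have hg2 : MemLp g 2 (volume.restrict (ball z₀ δ)) :=
      hL2.mono_measure (Measure.restrict_mono hsub le_rfl)
    obtain ⟨h, h1, h2⟩ := weyl_ball hδ hg2 (by
      intro ψ hψ hψc hψs
      have h3 := hw (fun z => (ψ z : ℂ)) (Complex.ofRealCLM.contDiff.comp hψ)
        (hψc.comp_left (g := fun t : ℝ => (t : ℂ)) Complex.ofReal_zero)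
        ((tsupport_comp_subset Complex.ofReal_zero ψ).trans (hψs.trans hδD))
      have e1 : ∀ z v, fderiv ℝ (fun z => (ψ z : ℂ)) z v = ((fderiv ℝ ψ z v : ℝ) : ℂ) := by
        intro z v
        have h5 : HasFDerivAt (fun z => (ψ z : ℂ)) (Complex.ofRealCLM.comp (fderiv ℝ ψ z)) z :=
          Complex.ofRealCLM.hasFDerivAt.comp z (hψ.differentiable (by simp) z).hasFDerivAt
        rw [h5.fderiv]; simp
      have e2 : ∀ z, dbar (fun z => (ψ z : ℂ)) z =
          (1 / 2 : ℂ) * ((fderiv ℝ ψ z 1 : ℂ) + Complex.I * (fderiv ℝ ψ z Complex.I : ℂ)) := by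
        intro z
        simp only [dbar, e1, smul_eq_mul]
      have e3 : ∫ z in ball z₀ δ, g z * ((fderiv ℝ ψ z 1 : ℂ) +
          Complex.I * (fderiv ℝ ψ z Complex.I : ℂ)) =
          2 * ∫ z in ball (0 : ℂ) r, g z * dbar (fun z => (ψ z : ℂ)) z := by
        rw [← integral_const_mul]
        rw [← setIntegral_eq_of_subset_of_forall_sdiff_eq_zero measurableSet_ball hsub]
        · refine integral_congr_ae (Eventually.of_forall fun z => ?_)
          simp only [e2]; ring
        · intro z hz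
          have h6 : fderiv ℝ ψ z = 0 := by
            by_contra hne
            exact hz.2 (hψs (support_fderiv_subset ℝ hne))
          rw [h6]; simp
      rw [e3, h3, mul_zero])
    exact ⟨δ / 2, by positivity, (ball_subset_ball (by linarith)).trans hδD, h, h1, h2⟩
  choose! δ hδ hδD H hH hHg using hloc
  -- the glued function
  have hcons : ∀ z₀ ∈ D, ∀ z ∈ ball z₀ (δ z₀), H z z = H z₀ z := by
    intro z₀ hz₀ z hz
    have hzD : z ∈ D := hδD z₀ hz₀ hz
    have hU : IsOpen (ball z₀ (δ z₀) ∩ ball z (δ z)) := isOpen_ball.inter isOpen_ball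
    have hE := eqOn_of_ae_eq hU ((hH z hzD).continuousOn.mono inter_subset_right)
      ((hH z₀ hz₀).continuousOn.mono inter_subset_left) (by
        have h1 := ae_restrict_of_ae_restrict_of_subset
          (inter_subset_left : ball z₀ (δ z₀) ∩ ball z (δ z) ⊆ _) (hHg z₀ hz₀)
        have h2 := ae_restrict_of_ae_restrict_of_subset
          (inter_subset_right : ball z₀ (δ z₀) ∩ ball z (δ z) ⊆ _) (hHg z hzD)
        filter_upwards [h1, h2] with w hw1 hw2
        rw [← hw1, ← hw2])
    exact hE ⟨hz, mem_ball_self (hδ z hzD)⟩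
  have hdiff : DifferentiableOn ℂ (fun z => H z z) D := by
    intro z₀ hz₀
    refine DifferentiableAt.differentiableWithinAt ?_
    have h1 : DifferentiableAt ℂ (H z₀) z₀ :=
      (hH z₀ hz₀).differentiableAt (isOpen_ball.mem_nhds (mem_ball_self (hδ z₀ hz₀)))
    refine h1.congr_of_eventuallyEq ?_
    filter_upwards [isOpen_ball.mem_nhds (mem_ball_self (hδ z₀ hz₀))] with z hz
    exact hcons z₀ hz₀ z hz
  have hae : ∀ᵐ z ∂volume.restrict D, g z = H z z := by
    rw [ae_restrict_iff' hDo.measurableSet]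
    have h1 : volume {z | z ∈ D ∧ g z ≠ H z z} = 0 := by
      refine measure_null_of_locally_null _ fun z₀ hz₀ => ?_
      refine ⟨ball z₀ (δ z₀) ∩ {z | z ∈ D ∧ g z ≠ H z z}, ?_, ?_⟩
      · rw [inter_comm]
        exact inter_mem_nhdsWithin _ (isOpen_ball.mem_nhds (mem_ball_self (hδ z₀ hz₀.1)))
      · have h2 := (ae_restrict_iff' measurableSet_ball).1 (hHg z₀ hz₀.1)
        refine measure_mono_null ?_ (ae_iff.1 h2)
        rintro z ⟨hz1, hz2, hz3⟩
        simp only [mem_ofPred_eq, not_forall]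
        exact ⟨hz1, fun h => hz3 (by rw [h, hcons z₀ hz₀.1 z hz1])⟩
    rw [ae_iff]
    refine measure_mono_null ?_ h1
    intro z hz
    simp only [mem_ofPred_eq, not_forall] at hz ⊢
    obtain ⟨hz1, hz2⟩ := hz
    exact ⟨hz1, hz2⟩
  -- removable singularity
  obtain ⟨h, hh, hhe⟩ := Vale.Agent.P271.H408.removable_L2_one (D := ball (0 : ℂ) r) (Z := {0})
    isOpen_ball (fun c _ => by
      by_cases hc : c = 0
      · subst hc
        filter_upwards [self_mem_nhdsWithin] with t ht
        exact ht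
      · filter_upwards [mem_nhdsWithin_of_mem_nhds (isOpen_ne.mem_nhds hc)] with t ht
        exact ht) hdiff (by
      have h1 : ∫⁻ t in D, ‖H t t‖ₑ ^ 2 = ∫⁻ t in D, ‖g t‖ₑ ^ 2 :=
        lintegral_congr_ae (hae.mono fun z hz => by simp only [hz])
      rw [h1]
      have h2 : ∫⁻ t in D, ‖g t‖ₑ ^ 2 ≤ ∫⁻ t in ball 0 r, ‖g t‖ₑ ^ 2 :=
        lintegral_mono_set sdiff_subset
      refine ne_top_of_le_ne_top ?_ h2
      have h3 : ∫⁻ z in ball (0 : ℂ) r, ‖g z‖ₑ ^ 2 = eLpNorm g 2 (volume.restrict (ball 0 r)) ^ 2 := by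
        have := eLpNorm_nnreal_pow_eq_lintegral (f := g) (μ := volume.restrict (ball (0 : ℂ) r))
          (p := 2) (by norm_num)
        simpa using this.symm
      rw [h3]
      exact ENNReal.pow_ne_top hL2.2.ne)
  refine ⟨h, hh, ?_⟩
  have h0 : ∀ᵐ z ∂(volume : Measure ℂ), z ≠ 0 := by
    rw [ae_iff]; simp
  rw [ae_restrict_iff' measurableSet_ball]
  filter_upwards [h0, (ae_restrict_iff' hDo.measurableSet).1 hae] with z hz hz' hzb
  rw [hz' ⟨hzb, hz⟩]
  exact (hhe ⟨hzb, hz⟩).symm

/-- Countably many proper subspaces do not cover. -/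
theorem gen : H690.HD.GEN_statement := by
  intro p hp
  by_contra hcon
  push Not at hcon
  have h1 : ∀ i, volume ((p i : Set (Fin 4 → ℂ))) = 0 := by
    intro i
    have h2 := Measure.addHaar_submodule (volume : Measure (Fin 4 → ℂ))
      ((p i).restrictScalars ℝ) (by
        intro h
        apply hp i
        rw [Submodule.restrictScalars_eq_top_iff] at h
        exact h)
    exact h2
  have h3 : (univ : Set (Fin 4 → ℂ)) ⊆ ⋃ i, (p i : Set (Fin 4 → ℂ)) := fun c _ => by
    obtain ⟨i, hi⟩ := hcon c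
    exact mem_iUnion.2 ⟨i, hi⟩
  have h4 : volume (univ : Set (Fin 4 → ℂ)) = 0 :=
    measure_mono_null h3 (measure_iUnion_null h1)
  exact isOpen_univ.measure_ne_zero _ univ_nonempty h4

end Vale.Agent.P247.H306
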